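import Crest.Agent.X212.Geo28.Bas

-- ▼ part X212/Geo28/Ch
section

/-!
# Row 212, layer GEO (helper28): the cells of an end, points of cobordisms and of caps
-/

set_option autoImplicit false
set_option linter.unusedSectionVars false

open Set Filter Topology Function Module
open scoped ContDiff Manifold
open Crest.Agent.R208 Crest.Agent.R208.F
open Crest.Agent.X212.Dr59 (Cs Cl Ex HZ Lat ip pm df psh)
open Crest.Agent.X212.Orx52 (Pos pr oR)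
open Crest.Agent.X212.Rfl19

noncomputable section

universe u

namespace Crest.Agent.X212.Geo28
open Bor5.T Flo2

/-- a cylinder, with ends that match eventually -/
def Pm.WCyl {A : O3} (T : Pm (some A) (some A) none) : Prop :=
  ∃ φ : (A.Y.M × ℝ) ≃ₘ^∞⟮IY A, T.X.I⟯ T.M, Pos (IY A) T.X.I φ univ (pr A.o oR) T.X.o ∧
    Ag atBot φ (Nc.k (A := A) T.ki) ∧ Ag atTop φ (Nc.k (A := A) T.ko)

theorem Pm.IsCyl.w {A : O3} {T : Pm (some A) (some A) none} (h : T.IsCyl) : T.WCyl :=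
  let ⟨φ, h1, h2, h3⟩ := h
  ⟨φ, h1, ⟨2, (eventually_lt_atBot (-2)).mono fun t ht y => by
    rw [← h2 y (t + 2) (by linarith), add_sub_cancel_right]⟩,
    ⟨-2, (eventually_gt_atTop 2).mono fun t ht y => by
      rw [← h3 y (t + -2) (by linarith), neg_add_cancel_right]⟩⟩

theorem Pm.WCyl.wk {A : O3} {T T' : Pm (some A) (some A) none} (h : T.WCyl) (h' : T'.WCyl)
    (n : T.nb = 0) (n' : T'.nb = 0) : Nonempty (T.Wk T') := by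
  obtain ⟨φ, h1, h2, h3⟩ := h
  obtain ⟨ψ, k1, k2, k3⟩ := h'
  have s : Pos T.X.I (IY A) φ.symm univ T.X.o (pr A.o oR) :=
    (Orx52.Pos.symm (φ := φ.toPartialDiffeomorph) h1 (subset_univ _)).mono
      fun y _ => ⟨φ.symm y, trivial, φ.apply_symm_apply y⟩
  have e : ∀ l : Filter ℝ, Ag l ((φ.symm.trans ψ) ∘ φ) ψ := fun l =>
    ag_of_eq (.of_forall fun _ _ => congrArg ψ (φ.symm_apply_apply _))
  exact ⟨Pm.wk0 ⟨φ.symm.trans ψ, k1.comp s (fun y _ => ψ.isLocalDiffeomorph y)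
    (fun y _ => φ.symm.isLocalDiffeomorph y) (mapsTo_univ _ _)⟩
    (ag_trans nd_bot (ag_trans nd_bot (ag_symm nd_bot (ag_comp h2 _)) (e _)) k2)
    (ag_trans nd_top (ag_trans nd_top (ag_symm nd_top (ag_comp h3 _)) (e _)) k3) n n'⟩

theorem ClsStmt.ki (h : ClsStmt) {A : O3} {b x} (T : Pm (some A) b x) (d : T.L) : ∃! s, T.ki.Cl d s :=
  h.nk A _ _ T.ki isOpen_Iio ordConnected_Iio nonempty_Iio d

theorem ClsStmt.ko (h : ClsStmt) {B : O3} {a x} (T : Pm a (some B) x) (d : T.L) : ∃! s, T.ko.Cl d s :=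
  h.nk B _ _ T.ko isOpen_Ioi ordConnected_Ioi nonempty_Ioi d

theorem PinStmt.pos (h : PinStmt) {a b x} (T : Pm a b x) {e : T.Fm} (he : Cs T.X.I 2 univ e)
    (hp : 0 < T.X.ip e e) : ∃ e, T.Fo e ∧ 0 < T.X.ip e e :=
  let ⟨e', h1, _, h2⟩ := h _ _ _ T e he
  ⟨e', h1, by rwa [h2 e' h1.cl, M4.ip, Dr59.ip_comm h1.cl.dg, ← M4.ip, h2 e he.cl]⟩

theorem M4.Dif.ps_pm {X X' : M4} (φ : X.Dif X') {d : X.L} {d' : X'.L} (hd : Pb φ.φ univ d' d)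
    {η : X'.Fm} (hη : Cs X'.I 2 univ η) (h : X.Ps d (pm X.I X'.I φ.φ η)) : X'.Ps d' η := by
  have e : pm X.I X'.I φ.φ η = φ.symm.ps η := (φ.symm.ps_eq η).symm
  have := φ.ps_ps hd (e ▸ (φ.symm.cs hη).mono (subset_univ _)) h
  rwa [φ.ps_eq, e, show pm X'.I X.I φ.φ.symm (φ.symm.ps η) = η from φ.symm.pm_ps η] at this

variable {K : Sk.{u}} {Q : Prd} (E : Eng K Q) (H : Lvs)

/-- the idempotent points and the `U`-cells of an end -/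
structure Ob (A : Q3) : Type u where
  e : K.ED (E.ob A)
  u : K.UD (E.ob A)
  re : ∀ s, ∃ (C : Pm (some A.toO3) (some A.toO3) none) (d : C.L), C.IsCyl ∧ C.nb = 0 ∧ C.ki.Cl d s ∧
    E.Rep (some A) (some A) (e.e (E.lab A s)) C d 0
  ru : ∀ s, ∃ (C : Pm (some A.toO3) (some A.toO3) none) (d : C.L), C.IsCyl ∧ C.nb = 1 ∧ C.Bxs ∧
    C.ki.Cl d s ∧ E.Rep (some A) (some A) (u.U (E.lab A s)) C d 0

namespace Eng

/-- `σ` is a point of the cobordism `C` -/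
def RC {A B : Q3} (C : Cob A B) (σ : K.F (E.ob A) (E.ob B)) (d : C.L) : Prop :=
  ∃ e η, OnC C e ∧ E.Rep (some A) (some B) σ e.pm d η

/-- `σ` is a point of the cap `C` -/
def RP {B : Q3} (C : Cp B) (σ : K.F K.one (E.ob B)) (d : C.L) : Prop :=
  ∃ e, OnP C e ∧ E.Rep none (some B) σ e.pm d C.η

include H

theorem ob_ne (A : Q3) : Nonempty (Ob E A) := by
  obtain ⟨C, c1, c2, -⟩ := H.cyl.ex A.toO3 0
  obtain ⟨C', k1, k2, k3⟩ := H.cyl.ex A.toO3 1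
  choose d hd using fun s => ((H.cyl.cl _ C c1).1 s).exists
  choose d' hd' using fun s => ((H.cyl.cl _ C' k1).1 s).exists
  choose e he using fun s => E.ex1' (some A) (some A) C (d s) 0 C.zr_zero.fo nofun
  choose v hv h1 h2 using fun s => E.U A C' k1 k2 (d' s)
  refine ⟨⟨⟨fun c => e ((E.lab A).symm c), fun c => E.pt (he _), fun c => ?_, fun c => ?_, fun c => ?_⟩,
    ⟨fun c => v ((E.lab A).symm c), fun c => E.pt (hv _), fun c => ?_, fun c => ?_, fun c => ?_,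
      fun c => ⟨h1 _, h2 _⟩⟩, fun s => ⟨C, d s, c1, c2, hd s, ?_⟩, fun s => ⟨C', d' s, k1, k2, k3, hd' s, ?_⟩⟩⟩
  · exact (E.hs (he _) _ (hd _)).trans (Equiv.apply_symm_apply _ _)
  · exact (E.ht (he _) _ (((H.cyl.cl _ C c1).2 _ _).1 (hd _))).trans (Equiv.apply_symm_apply _ _)
  · exact E.out H (he _) (he _) c1 c2 (c2.trans_le zero_le_one) (((H.cyl.cl _ C c1).2 _ _).1 (hd _))
      (hd _) nofun
  · exact (E.hs (hv _) _ (hd' _)).trans (Equiv.apply_symm_apply _ _)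
  · exact (E.ht (hv _) _ (((H.cyl.cl _ C' k1).2 _ _).1 (hd' _))).trans (Equiv.apply_symm_apply _ _)
  · have := E.tp (hv ((E.lab A).symm c)) (H.cyl.top A C' k1).1 0 ((H.cyl.top A C' k1).2.2 _)
    rwa [k2, show (0 : ℚ) - 2 * (((1 : Fin 2) : ℕ) : ℚ) = -2 by norm_num] at this
  · simpa only [Equiv.symm_apply_apply] using he s
  · simpa only [Equiv.symm_apply_apply] using hv s

variable {E}

/-- points of isomorphic cobordisms -/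
theorem RC.nat {A B : Q3} {C C' : Cob A B} {σ σ' d d'} (h : E.RC C σ d) (h' : E.RC C' σ' d')
    (φ : W4.Dif C.toW4 C'.toW4) (hi : Ag atBot (φ.φ ∘ C.ki) C'.ki) (ho : Ag atTop (φ.φ ∘ C.ko) C'.ko)
    (hd : Pb φ.φ univ d' d) : K.Htp σ σ' :=
  let ⟨_, _, h1, h2⟩ := h
  let ⟨_, _, k1, k2⟩ := h'
  E.htp_wk H h2 k2 (Pm.wk0 ⟨φ.φ, φ.pos⟩
    (ag_trans nd_bot (ag_trans nd_bot (ag_comp h1.1 _) hi) (ag_symm nd_bot k1.1))
    (ag_trans nd_top (ag_trans nd_top (ag_comp h1.2 _) ho) (ag_symm nd_top k1.2)) rfl rfl) hd nofun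

theorem RC.htp {A B : Q3} {C : Cob A B} {σ σ' d} (h : E.RC C σ d) (h' : E.RC C σ' d) : K.Htp σ σ' :=
  h.nat H h' ⟨_, (M4.Dif.refl (m4 C.toW4)).pos⟩ ag_refl ag_refl pb_id

/-- points of isomorphic caps -/
theorem RP.nat {B : Q3} {C C' : Cp B} {σ σ' d d'} (h : E.RP C σ d) (h' : E.RP C' σ' d')
    (φ : W4.Dif C.toW4 C'.toW4) (ho : Ag atTop (φ.φ ∘ C.ko) C'.ko) (hd : Pb φ.φ univ d' d)
    (hs : C.Seg d C.η (pm C.X.P.I C'.X.P.I φ.φ C'.η)) : K.Htp σ σ' :=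
  let ⟨_, h1, h2⟩ := h
  let ⟨_, k1, k2⟩ := h'
  E.htp_wk H h2 k2 (Pm.wk0 ⟨φ.φ, φ.pos⟩ trivial
    (ag_trans nd_top (ag_trans nd_top (ag_comp h1.1 _) ho) (ag_symm nd_top k1.1)) rfl rfl) hd
    fun _ => ⟨h1.2, k1.2, hs⟩

theorem RP.htp {B : Q3} {C : Cp B} {σ σ' d} (h : E.RP C σ d) (h' : E.RP C σ' d) (hp : C.Ps d C.η) :
    K.Htp σ σ' :=
  h.nat H h' ⟨_, (M4.Dif.refl (m4 C.toW4)).pos⟩ ag_refl pb_id
    (by
      show C.Seg d C.η (pm C.X.P.I C.X.P.I id C.η)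
      rw [Dr59.pm_id]
      exact M4.Ps.seg (X := m4 C.toW4) hp)

end Eng

namespace Ob
variable {E}
include H

/-- every point absorbs the idempotent at the outgoing end -/
theorem out {a} {B : Q3} (o : Ob E B) {σ : K.F (E.en a) (E.ob B)} {T d η}
    (h : E.Rep a (some B) σ T d η) (h1 : T.nb ≤ 1)
    (hp : a = none → T.Zr η ∧ T.X.Ps d η) : o.e.Out σ := by
  obtain ⟨s, hs, -⟩ := H.cls.ko T d
  obtain ⟨C, dC, c1, c2, c3, c4⟩ := o.re s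
  rw [← show K.t σ = E.lab B s from E.ht h s hs] at c4
  exact E.out H h c4 c1 c2 h1 hs c3 hp

/-- every point absorbs the idempotent at the incoming end -/
theorem inn {A : Q3} {b} (o : Ob E A) {σ : K.F (E.ob A) (E.en b)} {T d η}
    (h : E.Rep (some A) b σ T d η) (h1 : T.nb = 0) : o.e.In σ := by
  obtain ⟨s, hs, -⟩ := H.cls.ki T d
  obtain ⟨C, dC, c1, c2, c3, c4⟩ := o.re s
  rw [← show K.s σ = E.lab A s from E.hs h s hs] at c4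
  exact E.inn H h c4 c1 c2 h1 hs c3

/-- every point commutes with `U` -/
theorem com {A B : Q3} (o : Ob E A) (o' : Ob E B) {σ : K.F (E.ob A) (E.ob B)} {T d η}
    (h : E.Rep (some A) (some B) σ T d η) (h1 : T.nb = 0) : ∃ τ, K.Cmp τ (o.u.U (K.s σ)) σ ∧ K.Cmp τ σ (o'.u.U (K.t σ)) := by
  obtain ⟨s, hs, -⟩ := H.cls.ki T d
  obtain ⟨t, ht, -⟩ := H.cls.ko T d
  obtain ⟨C, dC, c1, c2, c3, c4, c5⟩ := o.ru s
  obtain ⟨C', dC', k1, k2, k3, k4, k5⟩ := o'.ru t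
  rw [show K.s σ = E.lab A s from E.hs h s hs, show K.t σ = E.lab B t from E.ht h t ht]
  exact E.com H h c5 k5 c1 k1 c2 k2 c3 k3 h1 hs ht c4 k4

theorem eU {A : Q3} (o : Ob E A) (c : K.L (E.ob A)) : o.e.Out (o.u.U c) := by
  obtain ⟨s, rfl⟩ := (E.lab A).surjective c
  obtain ⟨C, d, -, c2, -, -, c5⟩ := o.ru s
  exact o.out H c5 c2.le nofun

/-- a point of a cylinder is the idempotent -/
theorem cyl {A : Q3} (o : Ob E A) {σ : K.F (E.ob A) (E.ob A)} {T d η}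
    (h : E.Rep (some A) (some A) σ T d η) (hT : T.WCyl) (h1 : T.nb = 0) : K.Htp σ (o.e.e (K.s σ)) := by
  obtain ⟨s, hs, -⟩ := H.cls.ki T d
  obtain ⟨C, dC, c1, c2, c3, c4⟩ := o.re s
  obtain ⟨φ⟩ := hT.wk c1.w h1 c2
  obtain ⟨d', hd⟩ := φ.toDif.exists_pb d
  obtain rfl : d' = dC := ((H.cyl.cl _ C c1).1 s).unique
    ((H.cls.agi _ T.ki C.ki φ.φ univ d d' s isOpen_univ ⟨0, fun _ _ => trivial⟩ φ.ki hd).1 hs) c3
  rw [show K.s σ = E.lab A s from E.hs h s hs]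
  exact E.htp_wk H h c4 φ hd nofun

end Ob

end Crest.Agent.X212.Geo28
end
end

-- ▼ part X212/Geo28/Top

/-!
# Row 212, layer GEO (helper28): the engine, the leaves and the pentagons realise every scene
-/

set_option autoImplicit false
set_option linter.unusedSectionVars false

open Set Filter Topology Function Module
open scoped ContDiff Manifold
open Crest.Agent.R208 Crest.Agent.R208.F
open Crest.Agent.X212.Dr59 (Cs Cl Ex HZ Lat ip pm df psh)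
open Crest.Agent.X212.Orx52 (Pos pr oR)
open Crest.Agent.X212.Rod53 (Z2 Loc)
open Crest.Agent.X212.Lab56 (Cls)
open Crest.Agent.X212.Rfl19

noncomputable section

universe u

namespace Crest.Agent.X212.Geo28
open Bor5.T Flo2

variable {K : Sk.{u}} {Q : Prd} (E : Eng K Q) (H : Lvs)

/-- PENT-T: the pentagons of a triad -/
def TriadStmt : Prop := ∀ {A B C : Q3} (c₁ : Cob A B) (c₂ : Cob B C) (c₃ : Cob C A) {τ : Tub}
  {a b e : Z2} (f : Fo τ A.toO3 a) (g : Fo τ B.toO3 b) (h : Fo τ C.toO3 e), T3 τ a b e →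
  Hnd c₁ f g → Hnd c₂ g h → Hnd c₃ h f → ∀ (o : Ob E B) (p₁ : c₁.L → K.F (E.ob A) (E.ob B))
  (p₂ : c₂.L → K.F (E.ob B) (E.ob C)), (∀ d, E.RC c₁ (p₁ d) d) → (∀ d, E.RC c₂ (p₂ d) d) →
  (∃ (X : K.Arr (E.ob A) (E.ob B)) (Y : K.Arr (E.ob B) (E.ob C)) (_ : Sk.Dbl X Y), X.Rp p₁ ∧ Y.Rp p₂) ∧
    ∃ (X : K.Arr (E.ob A) (E.ob B)) (Y : K.Arr (E.ob B) (E.ob C)) (Z : K.Arr (E.ob C) (E.ob A))
      (D1 : Sk.Dbl Y Z) (D2 : Sk.Dbl Z X) (N : K.Cap) (P : Sk.Pen D1 D2 N),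
      X.Rp p₁ ∧ Y.Rp p₂ ∧ N.Has2 ∧ P.Id2 o.e

/-- PENT-N: the pentagon of the non-vanishing statement -/
def NvStmt (R : ℝ) : Prop := ∀ (S : Scene) (P : Pent S Q R) (o : Ob E (S.ob P.j))
  (o₀ : Ob E (S.ob S.i0)), ∃ (A : K.Arr K.one (E.ob (S.ob P.i)))
  (B : K.Arr (E.ob (S.ob P.i)) (E.ob (S.ob P.j))) (C : K.Arr (E.ob (S.ob P.j)) K.one)
  (D0 : Sk.Dbl A B) (D1 : Sk.Dbl B C) (N : K.Cap) (T : A.I → B.I → C.I → Prop) (Pn : Sk.Pen D0 D1 N T),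
    N.Has2 ∧ (∀ i i' : Pn.I0, i = i') ∧ (∃ i τ, K.Htp (Pn.ι i) τ ∧ K.ex1 τ) ∧
      (∀ k, Sk.Kil2 o.u o₀.u (C.f k) ∧ o.e.In (C.f k)) ∧
      ∀ k, ∃ D, Pb P.l (P.W.X.τ ⁻¹' Iio P.β) D P.d ∧ (S.cap P.C).Ps D (S.cap P.C).η ∧
        ∀ σ, E.RP (S.cap P.C) σ D → K.Htp σ (A.f k)

namespace Eng
include H

/-- all classes on a cobordism -/
theorem exC {A B : Q3} (C : Cob A B) :
    ∃ p : C.L → K.F (E.ob A) (E.ob B), (∀ d, E.RC C (p d) d) ∧ K.Prp p := by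
  classical
  obtain ⟨e, he⟩ := H.cob.1 A B C
  obtain ⟨p, h1, β, h2, h3⟩ := E.ex (some A) (some B) e.pm C.L id 0 (fun _ => e.pm.zr_zero.fo)
    ((finite_singleton 0).subset (range_subset_iff.2 fun _ => rfl)) nofun
  obtain ⟨D, k1, k2⟩ := H.fin (some A) (some B) e.pm
  have : ∀ x : D, ∃ e' : K.T β, ∀ r : ℝ, ∃ R : ℝ, ∀ d c, Cur d c → |K.prB (p d) (h2 d) e'| ≤ r →
      |e.pm.X.ip c x| ≤ R := fun x => by
    obtain ⟨y, y1, -, y2⟩ := H.pin _ _ _ e.pm x (k1 _ x.2)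
    obtain ⟨e', k⟩ := h3 y y1
    exact ⟨e', fun r => (k r).imp fun R k d c hc hr => y2 c (Nvg56.cur_cl hc) ▸ k d c hc hr⟩
  choose t ht using this
  refine ⟨p, fun d => ⟨e, 0, he, h1 d⟩, β, h2, Finset.univ.image t, fun r => ?_⟩
  choose R hR using fun x => ht x r
  refine (k2 (∑ x, |R x|)).subset fun d hd => ?_
  obtain ⟨c, hc⟩ := Nvg56.exists_cur d
  exact ⟨trivial, c, hc, fun x hx => (hR ⟨x, hx⟩ d c hc (hd _ (Finset.mem_image_of_mem _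
    (Finset.mem_univ _)))).trans ((le_abs_self _).trans (Finset.single_le_sum (f := fun x => |R x|)
      (fun _ _ => abs_nonneg _) (Finset.mem_univ _)))⟩

/-- all good classes on a cap -/
theorem exP {B : Q3} (C : Cp B) : ∃ p : ∀ d, C.Ps d C.η → K.F K.one (E.ob B),
    (∀ d h, E.RP C (p d h) d) ∧ ∀ e, Cs C.X.P.I 2 univ e → ∃ (β : K.B) (hβ : ∀ d h, K.base (p d h) = β)
      (D : Finset (K.T β)), ∀ r : ℝ, ∃ R : ℝ, ∀ d h c₀, Cur d c₀ →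
        (∀ e' ∈ D, |K.prB (p d h) (hβ d h) e'| ≤ r) → |ip C.X.P.I C.o c₀ e| ≤ R := by
  obtain ⟨e, he⟩ := H.cob.2 B C
  obtain ⟨p, h1, β, h2, h3⟩ := E.ex none (some B) e.pm {d // C.Ps d C.η} Subtype.val (fun _ => C.η)
    (fun _ => he.2.fo) ((finite_singleton C.η).subset (range_subset_iff.2 fun _ => rfl)) fun _ d => d.2
  refine ⟨fun d h => p ⟨d, h⟩, fun d h => ⟨e, he, h1 ⟨d, h⟩⟩, fun x hx => ?_⟩
  obtain ⟨y, y1, -, y2⟩ := H.pin _ _ _ e.pm x hx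
  obtain ⟨e', k⟩ := h3 y y1
  refine ⟨β, fun d h => h2 ⟨d, h⟩, {e'}, fun r => ?_⟩
  obtain ⟨R, k⟩ := k r
  exact ⟨R, fun d h c hc hr => (congrArg abs (y2 c (Nvg56.cur_cl hc))).ge.trans
    (k ⟨d, h⟩ c hc (hr _ (Finset.mem_singleton_self _)))⟩

omit H in
theorem rc_of {A B : Q3} {X : M4} (e : En2 (some A.toO3) (some B.toO3) X) (d : X.L) :
    ∃ σ, E.Rep (some A) (some B) σ e.pm d 0 :=
  E.ex1' (some A) (some B) e.pm d 0 e.pm.zr_zero.fo nofun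

omit H in
theorem rp_of {B : Q3} {C : Cp B} {e} (h : OnP C e) {d : C.L} (hp : C.Ps d C.η) :
    ∃ σ, E.Rep none (some B) σ e.pm d C.η :=
  E.ex1' none (some B) e.pm d C.η h.2.fo fun _ => hp

theorem nz {S : Q3} {T : Pm (some S.toO3) none none} (h : T.Nz) {σ : K.F (E.ob S) K.one} {d η}
    (hσ : E.Rep (some S) none σ T d η) : K.Nz σ := by
  obtain ⟨A, B, L, T', g, d', h1, h2, h3⟩ := h d
  obtain ⟨l, hl, -⟩ := H.cls.l g.toGl3 d'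
  obtain ⟨x, hx⟩ := E.ex3 A B S L l g.nL
  obtain ⟨y, ρ, η', k1, k2⟩ := E.ci T' d' hx hσ g hl h1
  exact ⟨_, _, y, ρ, x, E.qhs A, E.qhs B, k1, E.hi1 k2 h2 h3 g.nT⟩

variable {E}

omit H in
theorem RC.pt {A B : Q3} {C : Cob A B} {σ d} (h : E.RC C σ d) : K.Pt σ :=
  let ⟨_, _, _, h⟩ := h
  E.pt h

theorem RC.comp {A B C : Q3} {c₁ : Cob A B} {c₂ : Cob B C} {c : Cob A C} {σ σ₁ σ₂ d d₁ d₂}
    (h : E.RC c σ d) (h₁ : E.RC c₁ σ₁ d₁) (h₂ : E.RC c₂ σ₂ d₂)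
    (g : Gl c₁.toW4 c₂.toW4 c.toW4 c₁.ko c₂.ki) (hi : Ag atBot (g.fl ∘ c₁.ki) c.ki)
    (ho : Ag atTop (g.fr ∘ c₂.ko) c.ko) (hd : g.Rs d d₁ d₂) : K.Cmp σ σ₁ σ₂ := by
  obtain ⟨e₁, e₂, e, g', k1, k2, k, k3⟩ := H.gln.c c₁ c₂ c g hi ho
  obtain ⟨τ₁, l1⟩ := E.rc_of e₁ d₁
  obtain ⟨τ₂, l2⟩ := E.rc_of e₂ d₂
  obtain ⟨τ, l⟩ := E.rc_of e d
  exact (E.cm l l1 l2 g' (k3 _ _ _ hd).1 (k3 _ _ _ hd).2 nofun).congr (h.htp H ⟨_, _, k, l⟩)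
    (h₁.htp H ⟨_, _, k1, l1⟩) (h₂.htp H ⟨_, _, k2, l2⟩)

theorem RP.comp {B C : Q3} {c₁ : Cp B} {c₂ : Cob B C} {c : Cp C} {σ σ₁ σ₂ d d₁ d₂}
    (h : E.RP c σ d) (h₁ : E.RP c₁ σ₁ d₁) (h₂ : E.RC c₂ σ₂ d₂)
    (g : Gl c₁.toW4 c₂.toW4 c.toW4 c₁.ko c₂.ki) (ho : Ag atTop (g.fr ∘ c₂.ko) c.ko)
    (hd : g.Rs d d₁ d₂) (he : g.Ext0 c.η c₁.η) (p₁ : c₁.Ps d₁ c₁.η) (p : c.Ps d c.η) :
    K.Cmp σ σ₁ σ₂ := by
  obtain ⟨e₁, e₂, e, g', k1, k2, k, k4, k3⟩ := H.gln.p c₁ c₂ c g ho he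
  obtain ⟨τ₁, l1⟩ := E.rp_of k1 p₁
  obtain ⟨τ₂, l2⟩ := E.rc_of e₂ d₂
  obtain ⟨τ, l⟩ := E.rp_of k p
  exact (E.cm l l1 l2 g' (k3 _ _ _ hd).1 (k3 _ _ _ hd).2 fun _ => ⟨k4, p₁, p⟩).congr
    (h.htp H ⟨_, k, l⟩ p) (h₁.htp H ⟨_, k1, l1⟩ p₁) (h₂.htp H ⟨_, _, k2, l2⟩)

omit H in
theorem RC.deg {A B : Q3} {C : Cob A B} {σ d} (h : E.RC C σ d) {n : Type} [Fintype n] [DecidableEq n]
    {e : n → C.Fm} {g : n → ℝ} {Z c₀} {x : ℚ} (hL : Lat C.X.P.I C.o univ Z e (Matrix.diagonal g))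
    (h1 : Cs C.X.P.I 2 univ c₀) (h2 : Cur d c₀) (h3 : 4 * (x : ℝ) = C.sq c₀ / (4 * Real.pi ^ 2) -
      2 * Fintype.card n - 3 * ∑ a, (SignType.sign (g a) : ℝ)) : K.tp σ x := by
  obtain ⟨w, η, -, h⟩ := h
  have s := (Fintype.equivFin n).symm
  have k := hL.reindex s
  rw [Matrix.submatrix_diagonal_equiv] at k
  simpa using E.tp h C.h1 x ⟨_, _, _, Z, c₀, k, h1, h2, h3.trans (by
    rw [← s.sum_comp fun a => (SignType.sign (g a) : ℝ)]; rfl)⟩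

omit H in
theorem RC.hi1 {A B : Q3} {C : Cob A B} {σ d} (h : E.RC C σ d) {n : Type} [Fintype n] [DecidableEq n]
    {e : n → C.Fm} {g : n → ℝ} {Z} (hL : Lat C.X.P.I C.o univ Z e (Matrix.diagonal g))
    (hg : ∀ a, g a < 0) : K.hi1 σ := by
  obtain ⟨w, η, -, h⟩ := h
  have s := (Fintype.equivFin n).symm
  have k := hL.reindex s
  rw [Matrix.submatrix_diagonal_equiv] at k
  exact E.hi1 h C.h1 ⟨_, _, _, Z, k, Nat.card_eq_zero.2 (.inl ⟨fun a => a.2.not_gt (hg _)⟩)⟩ rfl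

end Eng

include H in
/-- **the realisation** -/
theorem geo (hT : TriadStmt E) {R : ℝ} (hN : NvStmt E R) (S : Scene) (P : Pent S Q R)
    (hs : K.sph (E.ob (S.ob S.i0))) : ∃ r : Rl2 S K, r.NV P := by
  have o := fun i => (E.ob_ne H (S.ob i)).some
  choose p hp pp using fun i j (c : S.κ i j) => E.exC H (S.cob c)
  choose q hq qq using fun i (c : S.γ i) => E.exP H (S.cap c)
  have s0 := E.sph _ S.s0 S.inj (H.s3 _ S.s0 S.inj)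
  refine ⟨{
    ob i := E.ob (S.ob i)
    qhs i := E.qhs _
    lab i := E.lab _
    psc i := E.psc _
    sph := hs
    U i := (o i).u
    E i := (o i).e
    eU i := (o i).eU H
    pt := p _ _
    isPt c d := (hp _ _ c d).pt
    prp := pp _ _
    s c d s h := let ⟨e, _, h1, h2⟩ := hp _ _ c d; E.hs h2 s ((H.cls.inn _ e d s h1).1 h)
    t c d s h := let ⟨e, _, h1, h2⟩ := hp _ _ c d; E.ht h2 s ((H.cls.out _ e d s h1).1 h)
    ept c d := let ⟨_, _, _, h⟩ := hp _ _ c d; ⟨(o _).inn H h rfl, (o _).out H h zero_le_one nofun⟩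
    comU c d := let ⟨_, _, _, h⟩ := hp _ _ c d; (o _).com H (o _) h rfl
    nat c c' φ d d' := (hp _ _ c d).nat H (hp _ _ c' d') φ
    comp c₁ c₂ c g d d₁ d₂ := (hp _ _ c d).comp H (hp _ _ c₁ d₁) (hp _ _ c₂ d₂) g
    id c φ d s h1 h2 h3 h4 := ?_
    deg c d _ _ _ e g Z c₀ x h1 h2 h3 h4 := ⟨_, .refl (hp _ _ c d).pt, (hp _ _ c d).deg h1 h2 h3 h4⟩
    tn c d _ _ _ e g Z h1 h2 := ⟨_, .refl (hp _ _ c d).pt, (hp _ _ c d).hi1 h1 h2, rfl⟩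
    tp c d e h1 h2 := let ⟨w, _, _, h⟩ := hp _ _ c d
      ⟨_, .refl (E.pt h), E.hi0 h rfl (H.pin.pos w.pm h1 h2)⟩
    bu c c' _ _ _ _ _ _ _ _ _ hv hv' f g r r' d d' d₀ h1 h2 h3 h4 h5 h6 h7 := ?_
    triad c₁ c₂ c₃ _ _ _ _ f g h h1 h2 h3 h4 :=
      hT _ _ _ f g h h1 h2 h3 h4 (o _) _ _ (hp _ _ c₁) (hp _ _ c₂)
    cp := q _
    ecp c d h := let ⟨_, h1, h2⟩ := hq _ c d h; (o _).out H h2 zero_le_one fun _ => ⟨h1.2, h⟩
    natc c c' φ d d' h1 h2 h3 := ?_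
    compc c₁ c₂ c g d d₁ d₂ h1 h2 h3 h₁ h :=
      (hq _ c d h).comp H (hq _ c₁ d₁ h₁) (hp _ _ c₂ d₂) g h1 h2 h3 h₁ h
    bnd := qq _ }, ?_⟩
  · obtain ⟨e, η, k1, k2⟩ := hp _ _ c d
    have := (o _).cyl H k2 ⟨φ, h1, ag_trans nd_bot h2 (ag_symm nd_bot k1.1),
      ag_trans nd_top h3 (ag_symm nd_top k1.2)⟩ rfl
    rwa [show K.s (p _ _ c d) = E.lab _ s from E.hs k2 s ((H.cls.inn _ e d s k1).1 h4)] at this
  · obtain ⟨L, T, T', w, w', k, k', a1, a2, a3, a4, a5⟩ :=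
      H.bu _ S.s0 S.inj _ _ hv hv' f g r r' h1 h2 h3 h4 h5
    obtain ⟨l, l1, l2⟩ := a5 d d' d₀ h6 h7
    obtain ⟨x, hx⟩ := E.ex3 _ _ _ L l k.nL
    obtain ⟨d₂, m, -⟩ := H.cls.r k.toGl3 d
    obtain ⟨d₂', m', -⟩ := H.cls.r k'.toGl3 d'
    obtain ⟨y, hy⟩ := E.ex1' (some (S.ob S.i0)) none T d₂ 0 T.zr_zero.fo nofun
    obtain ⟨y', hy'⟩ := E.ex1' (some (S.ob S.i0)) none T' d₂' 0 T'.zr_zero.fo nofun
    obtain ⟨σ, ρ, η, n1, n2⟩ := E.ci w.pm d hx hy k l1 m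
    obtain ⟨σ', ρ', η', n1', n2'⟩ := E.ci w'.pm d' hx hy' k' l2 m'
    exact ⟨_, σ, σ', ρ, ρ', x, y, y', (hp _ _ c d).htp H ⟨_, _, a1, n2⟩,
      (hp _ _ c' d').htp H ⟨_, _, a2, n2'⟩, s0.1, s0.2, n1, n1', E.nz H a3 hy, E.nz H a4 hy'⟩
  · have a := h3 0 (by simp)
    have b := h3 1 (by simp)
    simp only [sub_zero, one_smul, zero_smul, add_zero, sub_self, zero_add] at a b
    exact ⟨a, M4.Dif.ps_pm (X := m4 _) (X' := m4 _) ⟨φ.φ, φ.pos⟩ h2 (S.cap c').cs b,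
      (hq _ c d _).nat H (hq _ c' d' _) φ h1 h2 h3⟩
  · obtain ⟨A, B, C, D0, D1, N, T, Pn, h1, h2, h3, h4, h5⟩ := hN S P (o _) (o _)
    exact ⟨A, B, C, D0, D1, N, T, Pn, h1, h2, h3, h4, fun k =>
      let ⟨D, k1, k2, k3⟩ := h5 k
      ⟨D, k2, k1, k3 _ (hq _ _ D k2)⟩⟩

end Crest.Agent.X212.Geo28
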